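import Vale.Agent.P229.Strip

open scoped ContDiff

namespace Vale.Agent.Results.P229.KillingMetrics

/-- Every `C^∞` metric `g = E(x) dx² + 2 H(x) dx dy + G(x) dy²` on `ℝ²` (equivalently, in adapted
coordinates, every metric with a nowhere vanishing Killing field) has a `C^∞` isometric immersion
into Euclidean `ℝ³` on each strip `(a,b) × ℝ`.  No condition on the zero set of the curvature. -/
theorem result (E H G : ℝ → ℝ)
    (hE : ContDiff ℝ ∞ E) (hH : ContDiff ℝ ∞ H) (hG : ContDiff ℝ ∞ G)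
    (hGpos : ∀ x, 0 < G x) (hdet : ∀ x, 0 < E x * G x - H x ^ 2) (a b : ℝ) :
    ∃ Φ : ℝ × ℝ → EuclideanSpace ℝ (Fin 3),
      ContDiffOn ℝ ∞ Φ (Set.Ioo a b ×ˢ Set.univ) ∧
      ∀ p ∈ Set.Ioo a b ×ˢ (Set.univ : Set ℝ), ∀ v w : ℝ × ℝ,
        inner ℝ (fderiv ℝ Φ p v) (fderiv ℝ Φ p w)
          = E p.1 * v.1 * w.1 + H p.1 * (v.1 * w.2 + v.2 * w.1) + G p.1 * v.2 * w.2 :=
  Vale.Agent.P229.strip_immersion E H G hE hH hG hGpos hdet a b

end Vale.Agent.Results.P229.KillingMetrics
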